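import Crest.Agent.X212.Rs52.Defs
import Crest.Agent.X212.Lab56.Exi

/-!
# Row 212, RS-REF (helper83): a spin^c structure on the toric part with determinant of odd orders

The polar frame of `ℂ* × ℂ*` is invariant under all changes of the basis; it differs from the frame of a rod
chart by a full rotation in a plane, whose spin lift multiplies the determinant by the angle.
-/

set_option autoImplicit false
set_option linter.unusedSectionVars false

open Set Filter Topology Function Matrix Module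
open scoped ContDiff Manifold Kronecker
open Crest.Agent.X212.Pj41 Crest.Agent.X212.Met55 Crest.Agent.X212.Line51 Crest.Agent.X212.Lab56
open Crest.Agent.X212.Rod53 hiding Uni X cj rot
open Crest.Agent.X212.Glue52 (dir)

noncomputable section

namespace Crest.Agent.X212.Rs83

/-! ### the spin lift of a rotation -/

theorem gg (a : Fin 4) : gam a * gam a = -1 := by
  have e := pc_gam.cl.rel a a
  rw [← two_smul ℝ, one_apply_eq, mul_one, neg_smul, ← smul_neg] at e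
  exact smul_right_injective _ two_ne_zero e

theorem ga {a b : Fin 4} (h : a ≠ b) : gam a * gam b = -(gam b * gam a) := by
  have e := pc_gam.cl.rel a b
  rw [one_apply_ne h, mul_zero, zero_smul] at e
  exact eq_neg_of_add_eq_zero_left e

theorem p4_one : P4 (1 : Matrix (Fin 4) (Fin 4) ℝ) :=
  ⟨⟨fun a b => by simp [one_apply, eq_comm], fun a b => congrFun (congrFun (Matrix.one_mul (1 : Matrix (Fin 4) (Fin 4) ℝ)) a) b⟩,
    by simp⟩

/-- the rotation in the second plane -/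
def rt (z : ℂ) : Matrix (Fin 4) (Fin 4) ℝ := !![1, 0, 0, 0; 0, 1, 0, 0; 0, 0, z.re, z.im; 0, 0, -z.im, z.re]

/-- its spin lift -/
def ul (z : ℂ) : Matrix (Fin 4) (Fin 4) ℂ :=
  ((z + 1) / 2) • (1 : Matrix (Fin 4) (Fin 4) ℂ) + (Complex.I * (z - 1) / 2) • (gam 2 * gam 3)

variable {z : ℂ}

theorem sq_one (h : ‖z‖ = 1) : z.re ^ 2 + z.im ^ 2 = 1 := by
  have := Complex.sq_norm z
  rw [h, Complex.normSq_apply] at this
  linarith

theorem piso_rt (h : ‖z‖ = 1) : PIso (rt z)ᵀ 1 1 := by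
  have e := sq_one h
  refine ⟨?_, ?_, Matrix.mul_one _⟩ <;> rw [conjTranspose_eq_transpose_of_trivial, transpose_transpose] <;>
    ext i j <;> fin_cases i <;> fin_cases j <;> simp [rt, mul_apply, Fin.sum_univ_four] <;> linarith

theorem g2 (a : Fin 4) (Y : Matrix (Fin 4) (Fin 4) ℂ) : gam a * (gam a * Y) = -Y := by
  rw [← Matrix.mul_assoc, gg, Matrix.neg_mul, Matrix.one_mul]

theorem g3 {a b : Fin 4} (n : a ≠ b) (Y : Matrix (Fin 4) (Fin 4) ℂ) :
    gam a * (gam b * Y) = -(gam b * (gam a * Y)) := by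
  rw [← Matrix.mul_assoc, ga n, Matrix.neg_mul, Matrix.mul_assoc]

theorem ksq : gam 2 * gam 3 * (gam 2 * gam 3) = -1 := by
  rw [Matrix.mul_assoc, g3 (a := 3) (by decide), gg]; simp [gg]

theorem un_ul (h : ‖z‖ = 1) : Un 1 (rot (rt z)ᵀ gam) 1 gam (ul z) := by
  have e : (z.re : ℂ) ^ 2 + (z.im : ℂ) ^ 2 = 1 := by exact_mod_cast sq_one h
  have e2 := Complex.re_add_im z
  have e3 : (starRingEnd ℂ) z * z = 1 := by rw [Complex.conj_mul', h]; simp
  have i2 := Complex.I_mul_I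
  have sk : (gam 2 * gam 3)ᴴ = -(gam 2 * gam 3) := by
    rw [conjTranspose_mul, pc_gam.sk, pc_gam.sk, neg_mul_neg, ga (by decide)]
  have u1 : (ul z)ᴴ * ul z = 1 := by
    simp only [ul, conjTranspose_add, conjTranspose_smul, conjTranspose_one, sk, Matrix.add_mul, Matrix.mul_add,
      Matrix.smul_mul, Matrix.mul_smul, Matrix.one_mul, Matrix.mul_one, Matrix.neg_mul, ksq, Complex.star_def,
      map_div₀, map_mul, map_add, map_sub, map_one, Complex.conj_I, map_ofNat]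
    match_scalars
    · linear_combination e3 / 2 + (-((starRingEnd ℂ) z - 1) * (z - 1) / 4) * i2
    · linear_combination Complex.I / 2 * e3
  refine ⟨⟨u1, mul_eq_one_comm.1 u1, Matrix.mul_one _⟩, fun a => ?_⟩
  have A : z.re * (z + 1) - z.im * (Complex.I * (z - 1)) = z + 1 := by
    linear_combination e + (1 - (z.re - z.im * Complex.I)) * e2 - z.im ^ 2 * i2
  have B : z.re * (Complex.I * (z - 1)) + z.im * (z + 1) = -(Complex.I * (z - 1)) := by
    linear_combination Complex.I * e - Complex.I * (z.re - z.im * Complex.I + 1) * e2 +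
      (z.im * (z + 1) - Complex.I * z.im ^ 2) * i2
  fin_cases a <;>
    simp [ul, rot, rt, Fin.sum_univ_four, Matrix.add_mul, Matrix.mul_add, Matrix.mul_assoc,
      ga (a := 3) (b := 0) (by decide), ga (a := 3) (b := 1) (by decide), ga (a := 3) (b := 2) (by decide),
      g3 (a := 2) (b := 0) (by decide), g3 (a := 2) (b := 1) (by decide), g3 (a := 3) (b := 2) (by decide),
      gg, g2] <;> match_scalars <;> simp only [Complex.coe_algebraMap]
  exacts [by linear_combination A / 2, by linear_combination B / 2, by linear_combination A / 2,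
    by linear_combination -B / 2]

theorem ul_det {J : Matrix (Fin 4) (Fin 4) ℂ} (hJ : ∀ a, J * cj (gam a) = gam a * J) (z : ℂ) :
    ul z * J * (ul z)ᵀ = z • J := by
  have e : ∀ a, gam a * J = -(J * (gam a)ᵀ) := fun a => by
    rw [← hJ, cj, pc_gam.sk, transpose_neg, Matrix.mul_neg]
  have e1 : gam 2 * gam 3 * J = -(J * (gam 2 * gam 3)ᵀ) := by
    rw [Matrix.mul_assoc, e, Matrix.mul_neg, ← Matrix.mul_assoc, e, Matrix.neg_mul, neg_neg, Matrix.mul_assoc,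
      ← transpose_mul, ga (a := 3) (by decide), transpose_neg, Matrix.mul_neg]
  have e2 : J * (gam 2 * gam 3)ᵀ * (gam 2 * gam 3)ᵀ = -J := by
    rw [Matrix.mul_assoc, ← transpose_mul, ksq]; simp
  have i2 := Complex.I_mul_I
  simp only [ul, transpose_add, transpose_smul, transpose_one, Matrix.add_mul, Matrix.mul_add,
    Matrix.smul_mul, Matrix.mul_smul, Matrix.one_mul, Matrix.mul_one, Matrix.neg_mul, e1, e2]
  match_scalars
  · linear_combination ((z - 1) ^ 2 / 4) * i2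
  · ring

/-! ### constant modules over a basis -/

section gen

variable {E : Type} [NormedAddCommGroup E] [NormedSpace ℝ E] [FiniteDimensional ℝ E]
  {H : Type} [TopologicalSpace H] {I : ModelWithCorners ℝ E H}
  {M : Type} [TopologicalSpace M] [ChartedSpace H M] [IsManifold I ∞ M]
  {e w : Fin 4 → VF I M} {O : Set M} {x : M} {j : Matrix (Fin 4 × Fin 4) Unit ℂ}

/-- the spin structure of a framing -/
def cst (e : Fin 4 → VF I M) : Sc I M (Fin 4) (Fin 4) := ⟨e, fun _ => 1, fun c _ => gam c⟩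

/-- the determinant line -/
abbrev dl : Matrix (Fin 4 × Fin 4) (Fin 4 × Fin 4) ℂ := hP (fun a => cj (gam a)) gam

theorem fP_one (h4 : finrank ℝ E = 4) (h : Sp (atx e x)) : fP e x = 1 :=
  (prj_fP h).eq_of_trace Prj.one (Matrix.one_mul _) ((p4_fP h4 h).rk.trans (by simp))

theorem rf_cst (h4 : finrank ℝ E = 4) (h : ∀ x ∈ O, FAt e x) (hj : PIso j 1 dl) : Rf (cst e) (fun _ => j) O :=
  ⟨⟨h, fun x hx => p4_fP h4 (h x hx).sp, fun _ _ => MSm.const _, fun _ _ _ => MSm.const _, fun x hx => by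
    rw [show fP (cst e).e x = 1 from fP_one h4 (h x hx).sp]; exact pc_gam⟩,
    fun _ _ => MSm.const _, fun _ _ => hj⟩

/-- frames with a constant rotation -/
theorem ri_const (hj : PIso j 1 dl) {R : Matrix (Fin 4) (Fin 4) ℝ} (hR : PIso R 1 1)
    (h : ∀ x ∈ O, pol e w x = R) : RI (cst e) (fun _ => j) (cst w) (fun _ => j) O := by
  obtain ⟨A, hA⟩ := exists_un p4_one (pc_gam.rot hR) pc_gam
  have k := hA.piso_dm p4_one (pc_gam.rot hR) pc_gam
  rw [show (fun a => cj (rot R gam a)) = rot R fun a => cj (gam a) from funext (cj_rot R gam),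
    hP_rot p4_one pc_gam.bar pc_gam hR] at k
  have k2 := hj.trans k
  rw [Matrix.mul_assoc, hj.left] at k2
  obtain ⟨e1, e2⟩ := piso_ratio (by simp) k2 hj
  obtain ⟨c, hc⟩ := IsAlgClosed.exists_pow_nat_eq (((A ⊗ₖ A * j)ᴴ * j).trace) two_pos
  exact ri_of_sq (u := fun _ => A) ⟨fun _ _ => MSm.const _, fun x hx => by
    show Un 1 (rot (pol e w x) gam) 1 gam A
    rwa [h x hx]⟩ (c := fun _ => c) (fun _ _ => contMDiffAt_const)
    (fun _ _ => norm_of_sq (hc ▸ e2)) fun _ _ => hc ▸ e1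

/-- a rotation in a plane multiplies the determinant by its angle -/
theorem ri_rot (h4 : finrank ℝ E = 4) (hj : PIso j 1 dl) {z : M → ℂ} (hs : ∀ x ∈ O, FSm I z x)
    (hz : ∀ x ∈ O, ‖z x‖ = 1) (he : ∀ x ∈ O, Sp (atx e x)) (h : ∀ x ∈ O, atx w x = mix (rt (z x)) (atx e x))
    (hw : ∀ x ∈ O, Sp (atx w x)) : RI (cst e) (fun _ => j) (cst w) (fun x => z x • j) O := by
  have hJ := (hP_vec (A := mat j) p4_one pc_gam.bar pc_gam).1 hj.left
  refine ⟨fun x => ul (z x), ⟨fun x hx => ?_, fun x hx => ?_⟩, fun x _ => ?_⟩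
  · have k : ∀ f : ℂ → ℂ, ContDiff ℝ ∞ f → FSm I (fun y => f (z y)) x := fun f hf =>
      hf.contDiffAt.comp_contMDiffAt (hs x hx)
    exact (MSm.smul (k (fun z => (z + 1) / 2) (by fun_prop)) (MSm.const _)).add
      (MSm.smul (k (fun z => Complex.I * (z - 1) / 2) (by fun_prop)) (MSm.const _))
  · show Un 1 (rot (pol e w x) gam) 1 gam _
    have k : fM e w x = (rt (z x))ᵀ := by
      rw [fM, h x hx, tm_mix, show prj _ _ = 1 from fP_one h4 (he x hx), Matrix.one_mul]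
    rw [pol_of_piso (by rw [k, fP_one h4 (he x hx), fP_one h4 (hw x hx)]; exact piso_rt (hz x hx)), k]
    exact un_ul (hz x hx)
  · exact (kk_vec _ (mat j)).trans (congrArg Lab56.vec (ul_det hJ.ρ _))

end gen

/-! ### the model `ℂ × ℂ` -/

section model

variable {j : Matrix (Fin 4 × Fin 4) Unit ℂ} {μ φ : ℂ × ℂ → ℂ × ℂ} {O : Set (ℂ × ℂ)} {g w : ℂ × ℂ} {a b : Z2}

/-- the standard basis -/
def xi : Fin 4 → ℂ × ℂ := ![(1, 0), (Complex.I, 0), (0, 1), (0, Complex.I)]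

/-- its multiples -/
def fr (μ : ℂ × ℂ → ℂ × ℂ) : Fin 4 → VF IV (ℂ × ℂ) := fun c w => μ w * xi c

/-- the torus -/
def OV : Set (ℂ × ℂ) := {w | w.1 ≠ 0 ∧ w.2 ≠ 0}

theorem isOpen_OV : IsOpen OV :=
  (isOpen_ne.preimage continuous_fst).inter (isOpen_ne.preimage continuous_snd)

theorem OV.mul (h : g ∈ OV) (h' : w ∈ OV) : g * w ∈ OV := ⟨mul_ne_zero h.1 h'.1, mul_ne_zero h.2 h'.2⟩

theorem h4 : finrank ℝ (ℂ × ℂ) = 4 := by simp

theorem fAt_fr (hs : FSm IV μ w) (h : μ w ∈ OV) : FAt (fr μ) w := by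
  refine ⟨fun c => vAt_iff_self.2 (((contDiff_id.mul contDiff_const (𝕜 := ℝ)
    (g := fun _ => xi c)).contDiffAt.comp_contMDiffAt hs).congr_of_eventuallyEq (.of_forall fun y => ?_)),
    fun u => ⟨![(u.1 / (μ w).1).re, (u.1 / (μ w).1).im, (u.2 / (μ w).2).re, (u.2 / (μ w).2).im], ?_⟩⟩
  · simp [Sob92.dv, fr]
    rfl
  · have k : ∀ a m : ℂ, m ≠ 0 → a = (a / m).re * m + (a / m).im * (m * Complex.I) := fun a m n => by
      linear_combination -m * Complex.re_add_im (a / m) - mul_div_cancel₀ a n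
    ext
    · simpa [fr, xi, Fin.sum_univ_four] using k _ _ h.1
    · simpa [fr, xi, Fin.sum_univ_four] using k _ _ h.2

theorem sm_id : FSm IV id w := contMDiffAt_id

theorem sm_f1 : FSm IV (fun w : ℂ × ℂ => (w.1, (1 : ℂ))) w :=
  (contDiff_fst.prodMk contDiff_const).contMDiff w

theorem rf_P (hj : PIso j 1 dl) : Rf (cst (fr id)) (fun _ => j) OV :=
  rf_cst h4 (fun _ h => fAt_fr sm_id h) hj

theorem rf_F (hj : PIso j 1 dl) : Rf (cst (fr fun w => (w.1, 1))) (fun _ => j) {w | w.1 ≠ 0} :=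
  rf_cst h4 (fun _ h => fAt_fr sm_f1 ⟨h, one_ne_zero⟩) hj

theorem sm_dir (h : w ∈ OV) : FSm IV (fun w : ℂ × ℂ => (dir w.2 : ℂ)) w :=
  cm_coe (cm_dir (contDiff_snd.contMDiff w) h.2)

/-- the rod frame and the polar frame -/
theorem ri_F (hj : PIso j 1 dl) :
    RI (cst (fr fun w => (w.1, 1))) (fun _ => j) (cst (fr id)) (fun w => (dir w.2 : ℂ) • j) OV := by
  have n : ∀ w : ℂ × ℂ, ‖w.2‖ = 1 → w.2 ≠ 0 := fun w h => norm_ne_zero_iff.1 (h ▸ one_ne_zero)
  refine Dfm.ri (O₀ := {w | w.1 ≠ 0 ∧ ‖w.2‖ = 1})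
    ⟨fun z => (z.2.1, (((1 - z.1) * ‖z.2.2‖⁻¹ + z.1 : ℝ) : ℂ) * z.2.2), ?_, fun t ht w hw => ⟨hw.1, ?_⟩,
      fun w hw => ⟨hw.1, by simp [hw.2]⟩, fun w _ => by simp⟩ isOpen_OV (fun w h => ⟨h.1, n w h.2⟩)
    ((rf_F hj).mono fun _ h => h.1) ((rf_P hj).smul (fun _ => sm_dir) fun _ _ => Circle.norm_coe _)
    (ri_rot h4 hj (fun w h => sm_dir ⟨h.1, n w h.2⟩) (fun _ _ => Circle.norm_coe _)
      (fun w h => (fAt_fr sm_f1 ⟨h.1, one_ne_zero⟩).sp) (fun w h => ?_)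
      fun w h => (fAt_fr sm_id ⟨h.1, n w h.2⟩).sp)
  · refine (by fun_prop : Continuous fun z : ℝ × ℂ × ℂ => z.2.1).continuousOn.prodMk (ContinuousOn.mul
      (Complex.continuous_ofReal.comp_continuousOn (ContinuousOn.add (ContinuousOn.mul (by fun_prop)
        (ContinuousOn.inv₀ (by fun_prop) fun z hz => norm_ne_zero_iff.2 hz.2.2)) (by fun_prop))) (by fun_prop))
  · refine mul_ne_zero (Complex.ofReal_ne_zero.2 (ne_of_gt ?_)) hw.2
    have := inv_pos.2 (norm_pos_iff.2 hw.2)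
    rcases ht.1.eq_or_lt with rfl | k
    · simpa using this
    · exact add_pos_of_nonneg_of_pos (mul_nonneg (sub_nonneg.2 ht.2) this.le) k
  · have e : (dir w.2 : ℂ) = w.2 := by simpa [h.2] using Glue52.norm_mul_dir w.2
    rw [e]
    funext c
    fin_cases c <;> simp [atx, fr, xi, mix, rt, Fin.sum_univ_four, Prod.ext_iff, Complex.ext_iff]

/-- multiplication by a point of the torus -/
def lm (g : ℂ × ℂ) : ℂ × ℂ →L[ℝ] ℂ × ℂ := ContinuousLinearMap.mul ℝ (ℂ × ℂ) g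

theorem ld_lm (h : g ∈ OV) (w : ℂ × ℂ) : IsLocalDiffeomorphAt IV IV ∞ (lm g) w :=
  Glue52.ld_of_inverse (g := lm g⁻¹) isOpen_univ isOpen_univ (mem_univ w)
    (lm g).contMDiff.contMDiffOn (lm _).contMDiff.contMDiffOn (mapsTo_univ _ _) (mapsTo_univ _ _)
    (fun y _ => Prod.ext (inv_mul_cancel_left₀ h.1 y.1) (inv_mul_cancel_left₀ h.2 y.2))
    fun y _ => Prod.ext (mul_inv_cancel_left₀ h.1 y.1) (mul_inv_cancel_left₀ h.2 y.2)

/-- the polar frame is invariant under the automorphisms of the torus -/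
theorem ri_inv (hj : PIso j 1 dl) (hl : ∀ w ∈ OV, IsLocalDiffeomorphAt IV IV ∞ φ w) (hm : MapsTo φ OV OV)
    (hφ : ∀ g ∈ OV, ∀ w ∈ OV, φ (g * w) = φ g * φ w) :
    RI (cst (fr id)) (fun _ => j) ((cst (fr id)).pull IV φ) (fun _ => j) OV := by
  have o : (1 : ℂ × ℂ) ∈ OV := ⟨one_ne_zero, one_ne_zero⟩
  have k1 := (fAt_fr sm_id o).sp
  have k2 := ((fAt_fr sm_id (hm o)).pbv (hl 1 o)).sp
  refine ri_const hj (R := pol (fr id) (fun c => pbv IV IV φ (fr id c)) 1)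
    (by simpa only [fP_one h4 k1, fP_one h4 k2] using piso_pol k1 k2) fun g hg => ?_
  have e : lm g 1 = g := mul_one g
  rw [← congrArg (pol _ _) e]
  refine (pol_rel (ld_lm hg 1) k1 k2 (fun c => ?_) fun c => ?_).symm
  · rw [ContinuousLinearMap.mfderiv_eq]
    exact (mul_assoc g 1 (xi c)).symm
  · refine (pbv_unique (hl _ (e.symm ▸ hg)) ?_).symm
    have d : ∀ g y, MDifferentiableAt IV IV (lm g) y := fun g y => (lm g).mdifferentiableAt
    have d' : ∀ w ∈ OV, MDifferentiableAt IV IV φ w := fun w h => (hl w h).mdifferentiableAt (by simp)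
    have ev : φ ∘ lm g =ᶠ[𝓝 1] lm (φ g) ∘ φ := eventually_of_mem (isOpen_OV.mem_nhds o) (hφ g hg)
    have := ev.mfderiv_eq (I := IV) (I' := IV)
    rw [mfderiv_comp 1 (d' _ (e.symm ▸ hg)) (d g 1), mfderiv_comp 1 (d _ _) (d' 1 o)] at this
    refine (DFunLike.congr_fun this _).trans ?_
    refine (congrArg (mfderiv IV IV (lm (φ g)) (φ 1)) (pbv_rel (hl 1 o) _)).trans ?_
    rw [ContinuousLinearMap.mfderiv_eq]
    exact (mul_assoc (φ g) (φ 1) (xi c)).symm.trans (congrArg (· * xi c) (hφ g hg 1 o).symm)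

/-- rod chart → model -/
def ka (z : (Circle × ℂ) × ℝ) : ℂ × ℂ := ((Real.exp z.2 : ℂ) * z.1.1, z.1.2)

/-- model → rod chart -/
def ki (w : ℂ × ℂ) : (Circle × ℂ) × ℝ := ((dir w.1, w.2), Real.log ‖w.1‖)

theorem ka_ne (z : (Circle × ℂ) × ℝ) : (ka z).1 ≠ 0 :=
  mul_ne_zero (Complex.ofReal_ne_zero.2 (Real.exp_pos _).ne') (Circle.coe_ne_zero _)

theorem ki_ka (z : (Circle × ℂ) × ℝ) : ki (ka z) = z :=
  Prod.ext (Prod.ext (Glue52.dir_mul (Real.exp_pos _) _) rfl)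
    ((congrArg Real.log (norm_polar (Real.exp_pos _).le _)).trans (Real.log_exp _))

theorem ka_ki (h : w.1 ≠ 0) : ka (ki w) = w :=
  Prod.ext (by simp only [ka, ki, Real.exp_log (norm_pos_iff.2 h), Glue52.norm_mul_dir]) rfl

theorem cm_ka (z : (Circle × ℂ) × ℝ) : ContMDiffAt IR IV ∞ ka z :=
  (cm_mul (cm_ofReal (cm_fun Real.contDiff_exp.contDiffAt contMDiffAt_snd))
    (cm_coe contMDiffAt_fst.fst)).prodMk_space contMDiffAt_fst.snd

theorem cm_ki (h : w.1 ≠ 0) : ContMDiffAt IV IR ∞ ki w :=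
  have f1 : ContMDiffAt IV 𝓘(ℝ, ℂ) ∞ (fun z : ℂ × ℂ => z.1) w := contDiff_fst.contMDiff w
  ((cm_dir f1 h).prodMk (contDiff_snd.contMDiff w)).prodMk
    (cm_fun (Real.contDiffAt_log.2 (norm_ne_zero_iff.2 h)) (cm_norm f1 h))

theorem ld_ka (z : (Circle × ℂ) × ℝ) : IsLocalDiffeomorphAt IR IV ∞ ka z :=
  Glue52.ld_of_inverse (g := ki) (t := {w | w.1 ≠ 0}) isOpen_univ (isOpen_ne.preimage continuous_fst) (mem_univ z)
    (fun z _ => (cm_ka z).contMDiffWithinAt) (fun _ h => (cm_ki h).contMDiffWithinAt) (fun z _ => ka_ne z)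
    (mapsTo_univ _ _) (fun z _ => ki_ka z) fun _ => ka_ki

theorem ld_ki (h : w.1 ≠ 0) : IsLocalDiffeomorphAt IV IR ∞ ki w :=
  Glue52.ld_of_inverse (g := ka) (s := {w | w.1 ≠ 0}) (isOpen_ne.preimage continuous_fst) isOpen_univ h
    (fun _ h => (cm_ki h).contMDiffWithinAt) (fun z _ => (cm_ka z).contMDiffWithinAt) (mapsTo_univ _ _)
    (fun z _ => ka_ne z) (fun _ => ka_ki) fun z _ => ki_ka z

/-- the change of the basis in the model -/
def ph (a b : Z2) : ℂ × ℂ → ℂ × ℂ := ka ∘ Prod.map (gl a b) id ∘ ki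

theorem dir_mul' {z w : ℂ} (h : z ≠ 0) (h' : w ≠ 0) : dir (z * w) = dir z * dir w := by
  conv_lhs => rw [← Glue52.norm_mul_dir w, mul_left_comm, dir_pos_mul (norm_pos_iff.2 h'), dir_mul_circle h]

theorem ph_mul (h : g ∈ OV) (h' : w ∈ OV) : ph a b (g * w) = ph a b g * ph a b w := by
  ext <;> simp only [ph, ka, ki, gl, Function.comp_apply, Prod.map, id, Prod.fst_mul, Prod.snd_mul, dir_mul' h.1 h'.1,
    dir_mul' h.2 h'.2, norm_mul, Real.log_mul (norm_ne_zero_iff.2 h.1) (norm_ne_zero_iff.2 h'.1), Real.exp_add,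
    mul_zpow, Circle.coe_mul, Complex.ofReal_mul] <;> ring

theorem ri_ph (hj : PIso j 1 dl) (hu : Rod53.Uni a b) :
    RI ((cst (fr id)).pull IV (ph a b)) (fun _ => j) (cst (fr fun w => (w.1, 1)))
      (fun w => (dir w.2 : ℂ)⁻¹ • j) OV := by
  have l : ∀ w ∈ OV, IsLocalDiffeomorphAt IV IV ∞ (ph a b) w := fun w h =>
    ((ld_ki h.1).comp _ _ (Cyl58.ld_prodMap (ld_gl hu h.2) (Cyl58.ld_id _))).comp _ _ (ld_ka _)
  have m : MapsTo (ph a b) OV OV := fun w h => ⟨ka_ne _, gl_ne.2 h.2⟩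
  have F := (rf_F hj).mono (O' := OV) fun _ h => h.1
  have n : ∀ w : ℂ × ℂ, (dir w.2 : ℂ) ≠ 0 := fun _ => Circle.coe_ne_zero _
  exact ((ri_inv hj l m fun _ h _ => ph_mul h).symm (rf_P hj) ((rf_P hj).ok.pull l m)).trans isOpen_OV
    ((rf_P hj).pull l m) (rf_P hj).ok F.ok ((((ri_F hj).symm F (rf_P hj).ok).smul
      fun w => (dir w.2 : ℂ)⁻¹).of_eq (.refl _ _) (fun w _ => (inv_smul_smul₀ (n w) j).symm) (.refl _ _)
      fun _ _ => rfl)

end model

/-! ### the rod manifold -/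

variable {EN HN : Type} [NormedAddCommGroup EN] [NormedSpace ℝ EN] [FiniteDimensional ℝ EN]
  [TopologicalSpace HN] {IN : ModelWithCorners ℝ EN HN} [IN.Boundaryless]
  {N : Type} [TopologicalSpace N] [ChartedSpace HN N] [IsManifold IN ∞ N] [T2Space N]
  {T : Tb IN N} {v : ℝ → Z2} {a b : Z2} {J : Set ℝ} {x : Rod53.X T v} {j : Matrix (Fin 4 × Fin 4) Unit ℂ}

variable (T v) in
/-- the chart of a rod -/
def ch (hu : Rod53.Uni a b) : Rod53.X T v → ℂ × ℂ := ka ∘ (T.rod v hu).symm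

theorem ld_ch (hu : Rod53.Uni a b) (h : x ∈ T.tor v) (h' : x ∈ off T v ∨ T.time v x ∈ Jr v a) :
    IsLocalDiffeomorphAt (𝓡 4) IV ∞ (ch T v hu) x :=
  (ld_pd (T.rod v hu).symm (mem_rod_target hu h h')).comp _ _ (ld_ka _)

theorem ch_mem (hu : Rod53.Uni a b) (h : x ∈ T.tor v) (h' : x ∈ off T v) : ch T v hu x ∈ OV :=
  ⟨ka_ne _, (rod_symm hu (mem_rod_target hu h (Or.inl h'))).2.2 h'⟩

theorem ph_ch (hu : Rod53.Uni a b) (h : x ∈ T.tor v) (h' : x ∈ off T v) :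
    ch T v uni_std x = ph a b (ch T v hu x) := by
  have k := mem_rod_target hu h (Or.inl h')
  have n := (rod_symm hu k).2.2 h'
  have e : T.rod v hu ((T.rod v hu).symm x) = x := (T.rod v hu).right_inv k
  simp only [ph, ch, Function.comp_apply, ki_ka]
  generalize (T.rod v hu).symm x = w at n e
  rw [← e, T.rod_eq_ext hu n, ← gl_id (gl a b w.1),
    ← T.rod_eq_ext uni_std (w := (gl a b w.1, w.2)) (gl_ne.2 n)]
  exact congrArg ka ((T.rod v uni_std).left_inv (Or.inl (gl_ne.2 n)))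

theorem chi_ch (hu : Rod53.Uni a b) (h : x ∈ T.tor v) (h' : x ∈ off T v) :
    chi T v (dual a b (-1) 0) x = (dir (ch T v hu x).2)⁻¹ := by
  have k := mem_rod_target hu h (Or.inl h')
  conv_lhs => rw [← show T.rod v hu ((T.rod v hu).symm x) = x from (T.rod v hu).right_inv k,
    chi_rod hu ((rod_symm hu k).2.2 h'), dual_left hu, dual_right hu]
  simp [ch, ka]

variable (T v) in
/-- the polar datum -/
def pd : Sc (𝓡 4) (Rod53.X T v) (Fin 4) (Fin 4) := (cst (fr id)).pull (𝓡 4) (ch T v uni_std)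

theorem rf_pd (hj : PIso j 1 dl) : Rf (pd T v) (fun _ => j) (T.tor v ∩ off T v) :=
  (rf_P hj).pull (fun _ h => ld_ch _ h.1 (Or.inl h.2)) fun _ h => ch_mem _ h.1 h.2

/-- the flat datum of a rod has order `-1` -/
theorem lab_rod (hj : PIso j 1 dl) (hu : Rod53.Uni a b) (hJ : IsOpen J) (h : J ⊆ Jr v a) :
    ∃ d : Sc (𝓡 4) (Rod53.X T v) (Fin 4) (Fin 4), d.On (T.tor v ∩ T.time v ⁻¹' J) ∧
      Lab (pd T v) (fun _ => j) d (0 + fun t => dot (dual a b (-1) 0) (v t)) (T.tor v ∩ T.time v ⁻¹' J) := by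
  have o := T.isOpen_tor.inter (isOpen_time (T := T) (v := v) hJ)
  have F := (rf_F hj).pull (I' := 𝓡 4) (W := T.tor v ∩ T.time v ⁻¹' J)
    (fun _ k => ld_ch hu k.1 (Or.inr (h k.2))) fun _ _ => ka_ne _
  have l : ∀ w ∈ OV, IsLocalDiffeomorphAt IV IV ∞ (ph a b) w := fun w h =>
    ((ld_ki h.1).comp _ _ (Cyl58.ld_prodMap (ld_gl hu h.2) (Cyl58.ld_id _))).comp _ _ (ld_ka _)
  have l' := fun x (k : x ∈ T.tor v ∩ T.time v ⁻¹' J ∩ off T v) => ld_ch hu k.1.1 (Or.inl k.2)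
  have m := fun x (k : x ∈ T.tor v ∩ T.time v ⁻¹' J ∩ off T v) => ch_mem hu k.1.1 k.2
  refine ⟨_, F.ok, lab_of_ri o (((ri_ph hj hu).pull ((rf_P hj).ok.pull l fun w h => ⟨ka_ne _, gl_ne.2 h.2⟩)
    ((rf_F hj).ok.mono fun _ h => h.1) l' m).of_eq ((pull_pull _ l' fun x k => l _ (m x k)).trans
      (pull_congr _ fun x k => eventually_of_mem ((o.inter isOpen_off).mem_nhds k) fun y k' =>
        ph_ch hu k'.1.1 k'.2)) (fun _ _ => rfl) (.refl _ _) fun x k => ?_)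
    ((tl_of_fr o F.sec).mul (tl_chi inter_subset_left fun _ _ _ => rep_dot _ _))⟩
  beta_reduce
  rw [mul_sc, chi_ch hu k.1.1 k.2, Circle.coe_inv]

theorem exists_odd [SecondCountableTopology N] {w : ℤ → Z2} (hw : IsWd w) :
    ∃ (d : Sc (𝓡 4) (Rod53.X T (wd w)) (Fin 4 ⊕ Fin 4) (Fin 4 ⊕ Fin 4)) (k : ℤ → ℤ)
      (s : Rod53.X T (wd w) → Matrix ((Fin 4 ⊕ Fin 4) × (Fin 4 ⊕ Fin 4)) Unit ℂ),
      d.On (T.tor (wd w)) ∧ TL T (wd w) (wm w k) d.det s (T.tor (wd w)) ∧ ∀ i, Odd (k i) := by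
  have := sigX (T := T) hw.loc
  obtain ⟨j, hj⟩ := exists_col p4_one pc_gam.bar pc_gam
  obtain ⟨d, hd⟩ := exists_tor (T := T) hw
  have R := rf_pd (T := T) (v := wd w) hj
  have L := fun i => lab_rod (T := T) hj (hw.prim i).choose_spec isOpen_Ioo (Ioo_subset_Jr (a := w) (i := i))
  have o := fun i : ℤ => T.isOpen_tor.inter
    (isOpen_time (T := T) (v := wd w) (isOpen_Ioo (a := (i : ℝ)) (b := i + 1)))
  have s : ∀ J, T.tor (wd w) ∩ T.time (wd w) ⁻¹' J ∩ off T (wd w) ⊆ T.tor (wd w) ∩ off T (wd w) :=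
    fun _ => inter_subset_inter_left _ inter_subset_left
  obtain ⟨d₀, h₀, l₀⟩ := L 0
  have i := (dfm_off (fun _ => T.ext_mem_tor) ordConnected_univ trivial
    (show (1 / 2 : ℝ) ∈ Ioo ((0 : ℤ) : ℝ) ((0 : ℤ) + 1) by norm_num)).eqv
    ((T.isOpen_tor.inter (isOpen_time isOpen_univ)).inter isOpen_off)
    (fun _ hx => ⟨⟨hx.1.1, trivial⟩, hx.2⟩) (R.ok.mono (s _)) (hd.mono fun _ hx => hx.1.1)
    (l₀.eqv_off.trans ((o 0).inter isOpen_off) (R.ok.mono (s _)) (h₀.mono inter_subset_left)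
      (hd.mono fun _ hx => hx.1.1) (((pic_tor (hw.prim 0).choose_spec isOpen_Ioo ordConnected_Ioo
        Ioo_subset_Jr).eqv subset_rfl h₀ (hd.mono inter_subset_left)).mono inter_subset_left))
  obtain ⟨m, σ, l1, l2⟩ := exists_lab T.isOpen_tor (fun _ _ _ _ k _ => tor_of_not_off k) R hd
    (i.mono fun _ hx => ⟨⟨hx.1, trivial⟩, hx.2⟩)
  obtain ⟨k, l3⟩ := Cls19.tl_wd T.isOpen_tor l2 fun i => by
    rw [inter_eq_right.2 fun t _ => ?_]
    · exact isPreconnected_Ioo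
    obtain ⟨y, a, b⟩ := Cls19.exists_axis (T := T) hw.loc t
    exact ⟨y, ⟨tor_of_not_off a, a⟩, b⟩
  refine ⟨d, k, _, hd, l3, fun i => ?_⟩
  obtain ⟨d₁, h₁, l₁⟩ := L i
  have ht : (i + 1 / 2 : ℝ) ∈ Ioo (i : ℝ) (i + 1) := ⟨by linarith, by linarith⟩
  obtain ⟨x, ox, e⟩ := Cls19.exists_axis (T := T) hw.loc (i + 1 / 2 : ℝ)
  obtain ⟨η, h⟩ := l₁.par (o i) (R.mono (s _)) h₁ (hd.mono inter_subset_left)
    (Lab.mono ⟨σ, l1, l3⟩ inter_subset_left) ⟨tor_of_not_off ox, by rwa [mem_preimage, e]⟩ ox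
  have h2 := h.self_of_nhds
  simp only [e, wm_of_mem ht, zero_add, wd_of_mem ht, dual_left (hw.prim i).choose_spec] at h2
  exact ⟨dot η (w i) - 1, by rw [h2]; ring⟩

/-- **RS-REF** -/
theorem sc : Rs52.ScStmt := fun _ _ hw =>
  let ⟨d, k, s, h⟩ := exists_odd hw
  ⟨_, _, inferInstance, inferInstance, inferInstance, inferInstance, d, k, s, h⟩

end Crest.Agent.X212.Rs83
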