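import Crest.Agent.X212.Rs52.Defs
import Crest.Agent.X212.Pi52.Stmt
import Crest.Agent.X212.Loc8.Sc

/-!
# Row 212, RS-SIM (helper83): the inside of an `S¹ × S²` arc around a ball is simply connected
-/

set_option autoImplicit false
noncomputable section
open Set

namespace Crest.Agent.X212.Rs83
open M Wd38 Cyl58 Hz56 Pi52 Sid48

theorem sim : Rs52.SimStmt := by
  rintro Γ C w hw X R x y (⟨s, t⟩ | _ | _ | _ | _) o o' (a : _) (p : _) (l : x < _) (l' : _ < y) <;> try contradiction
  change x < s at l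
  change t < y at l'
  have := R.con
  have : LocallyConnectedSpace X.P.M := locConn (I := X.P.I)
  have lt := o'.1.lt
  have c1 := cast_lt l
  have c2 := cast_lt l'
  have c3 := cast_lt lt
  have op : ∀ {b} (h : b.OK w) s, IsOpen (sd R b s) := fun h s => nk_S R h s ▸ (R.nk _ h).h.op s
  have k1 : IsPreconnected (sd R (.rA x y) false) :=
    ((Nk.band_sd _ false).trans (nk_S R o false)).subst ((R.nk _ o).band.wall.conn false)
  have k2 : ∀ (G : Type) [Group G], H1 G (sd R (.rA x y) false) := fun G _ => by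
    have hS : ∀ r ∈ Iio (((y : ℝ) - x) / 2), r < ((y : ℝ) - x) / 2 + 1 / 4 := fun r k => by linarith [mem_Iio.1 k]
    refine (R.D_eq o.1 hS).symm.subst (motive := H1 G) ((tiso_h1 (R.B o.1) fun p hp => C.tm_disc hp hS).2
      (h1_disc _ o'.2 (o.1.bw_r l.le (by omega) ▸ o.1.jr hw (half_mem s)) ?_
        (Shp.bw_mid (l.trans lt) l'.le ▸ o.1.jr hw (half_mem t)) ?_)) <;>
      exact abs_lt.2 (by unfold cc; constructor <;> linarith)
  let N := (R.bn (.sA s t : Bs) o').wall
  have e : ∀ b, N.sd b = sd R (.sA s t) b := fun b => (Nk.band_sd _ b).trans (nk_S R o' b)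
  have V : N.sd false ∪ N.band ⊆ sd R (.rA x y) false := fun z k => by
    obtain ⟨r, r', h1, h2, h3⟩ := R.D_up o.1 l.le l'.le ((sd_false_union R (.sA s t)).le
      (k.imp (fun m => (e false).le m) fun m => (R.spec_nk _ o').b.le m))
    refine (h3 _).2 (mem_Iio.2 ?_)
    have := mem_Iio.1 h1
    simp only [Bs.r0, cc] at *
    cases abs_cases (((x : ℝ) + y + 1) / 2 - (s + t + 1) / 2) <;> linarith [le_abs_self (r - r')]
  have oU := (op o false).inter (N.op_sd true)
  have oV := (N.op_sd false).union N.op_band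
  have u : sd R (.rA x y) false ∩ N.sd true ∪ (N.sd false ∪ N.band) = sd R (.rA x y) false :=
    Subset.antisymm (union_subset inter_subset_left V) fun z k => or_iff_not_imp_left.2 fun m =>
      N.compl_subset true fun m' => m ⟨k, m'⟩
  have i : sd R (.rA x y) false ∩ N.sd true ∩ (N.sd false ∪ N.band) = N.half true :=
    Subset.antisymm (fun z k => ⟨k.2.resolve_left (N.not_mem_sd k.1.2), k.1.2⟩) fun z k => ⟨⟨V (.inr k.1), k.2⟩, .inr k.1⟩
  have k3 := pre_side (ι := Unit) oU (fun _ => oV) Subsingleton.pairwise (by rwa [iUnion_const, u])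
    fun _ => i ▸ N.conn_half true
  rw [← e true]
  exact ⟨⟨k1, fun _ => Loc8.sur_of_h1 (op o false) k1 k2⟩, k3, fun _ => Loc8.sur_of_h1 oU k3 fun G _ =>
    H1.side oU oV (u.symm ▸ k2 G) (i ▸ h1_bn_half R o' p true)⟩

end Crest.Agent.X212.Rs83
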